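import Vale.Agent.P249.Final2

namespace Vale.Agent.Results.P249.NearLinear

open Vale.Agent.P249

/-- `d_p(n, D) ≤ C n (log n)^(p+3)` for every `1 < p < ∞` and `D > 1`. -/
theorem result : ∀ p : ℝ, 1 < p → ∀ D : ℝ, 1 < D → ∃ C : ℝ, 0 < C ∧ ∀ n : ℕ, 2 ≤ n →
    (∃ d : ℕ, (d : ℝ) ≤ C * ((n : ℝ) * Real.log n ^ (p + 3)) ∧ Admits p D n d) ∧
      Admits p D n (dimP p D n) ∧
      (dimP p D n : ℝ) ≤ C * ((n : ℝ) * Real.log n ^ (p + 3)) := by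
  intro p hp D hD
  obtain ⟨C, hC, h⟩ := admits_bound2 (by linarith : 0 < p) hD
  refine ⟨C, hC, fun n hn => ?_⟩
  obtain ⟨d, hd, hA⟩ := h n hn
  refine ⟨⟨d, hd, hA⟩, Nat.sInf_mem (s := {d : ℕ | Admits p D n d}) ⟨d, hA⟩, ?_⟩
  have h1 : dimP p D n ≤ d := Nat.sInf_le hA
  have h2 : (dimP p D n : ℝ) ≤ d := by exact_mod_cast h1
  exact h2.trans hd

end Vale.Agent.Results.P249.NearLinear
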